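import Mathlib

namespace Vale.Agent.Lib.P317

open Set

/-- Counting lemma: if every member of `𝒜` lies in `𝒞` or is obtained from a member `T` of `𝒞`
by exchanging one element of `T` for one element of `E \ T`, and all members of `𝒞` are
`r`-subsets of `E`, then `|𝒜| ≤ (1 + r (|E| - r)) |𝒞|`. -/
theorem ncard_le_of_exchange_cover {α : Type*} [Finite α] (E : Set α) (r : ℕ)
    (𝒜 𝒞 : Set (Set α)) (h𝒞 : ∀ T ∈ 𝒞, T ⊆ E ∧ T.ncard = r)
    (hcov : ∀ S ∈ 𝒜, S ∈ 𝒞 ∨ ∃ T ∈ 𝒞, ∃ e ∈ E \ T, ∃ f ∈ T, S = insert e (T \ {f})) :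
    𝒜.ncard ≤ (1 + r * (E.ncard - r)) * 𝒞.ncard := by
  classical
  have hfin : 𝒞.Finite := Set.toFinite _
  let N : Set α → Set (Set α) := fun T =>
    (fun p : α × α => insert p.1 (T \ {p.2})) '' ((E \ T) ×ˢ T)
  have hN : ∀ T ∈ 𝒞, (N T).ncard ≤ r * (E.ncard - r) := by
    intro T hT
    have h1 : (N T).ncard ≤ ((E \ T) ×ˢ T).ncard := Set.ncard_image_le (Set.toFinite _)
    have h2 : (E \ T).ncard = E.ncard - r := by
      rw [Set.ncard_sdiff (h𝒞 T hT).1, (h𝒞 T hT).2]
    rw [Set.ncard_prod, h2, (h𝒞 T hT).2, mul_comm] at h1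
    exact h1
  have hcover : 𝒜 ⊆ 𝒞 ∪ ⋃ T ∈ hfin.toFinset, N T := by
    intro S hS
    rcases hcov S hS with h | ⟨T, hT, e, he, f, hf, rfl⟩
    · exact Or.inl h
    · right
      simp only [Set.mem_iUnion, Set.Finite.mem_toFinset, exists_prop]
      exact ⟨T, hT, (e, f), ⟨he, hf⟩, rfl⟩
  calc 𝒜.ncard
      ≤ (𝒞 ∪ ⋃ T ∈ hfin.toFinset, N T).ncard := Set.ncard_le_ncard hcover (Set.toFinite _)
    _ ≤ 𝒞.ncard + (⋃ T ∈ hfin.toFinset, N T).ncard := Set.ncard_union_le _ _
    _ ≤ 𝒞.ncard + ∑ T ∈ hfin.toFinset, (N T).ncard := by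
        gcongr
        exact Finset.set_ncard_biUnion_le _ _
    _ ≤ 𝒞.ncard + ∑ _T ∈ hfin.toFinset, r * (E.ncard - r) := by
        gcongr with T hT
        exact hN T (hfin.mem_toFinset.mp hT)
    _ = (1 + r * (E.ncard - r)) * 𝒞.ncard := by
        rw [Finset.sum_const, Set.ncard_eq_toFinset_card 𝒞 hfin, smul_eq_mul]
        ring

/-- Undoing an exchange. -/
theorem insert_sdiff_insert_sdiff {α : Type*} {B : Set α} {e f : α} (he : e ∈ B) (hf : f ∉ B) :
    B = insert e (insert f (B \ {e}) \ {f}) := by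
  have h4 : insert f (B \ {e}) \ {f} = B \ {e} := by
    ext x
    simp only [Set.mem_sdiff, Set.mem_insert_iff, Set.mem_singleton_iff]
    constructor
    · rintro ⟨h5 | h5, h6⟩
      · exact absurd h5 h6
      · exact h5
    · rintro ⟨h5, h6⟩
      exact ⟨Or.inr ⟨h5, h6⟩, fun h7 => hf (h7 ▸ h5)⟩
  rw [h4, Set.insert_sdiff_singleton, Set.insert_eq_of_mem he]

/-- An independent set with as many elements as the rank is a base (finite ground type). -/
theorem isBase_of_indep_of_encard {α : Type*} [Finite α] {M : Matroid α} {I : Set α}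
    (hI : M.Indep I) (hcard : M.eRank ≤ I.encard) : M.IsBase I := by
  obtain ⟨B, hB, hsub⟩ := hI.exists_isBase_superset
  have hBle : B.encard ≤ I.encard := by rw [hB.encard_eq_eRank]; exact hcard
  have : I = B := (Set.toFinite _).eq_of_subset_of_encard_le hsub hBle
  rw [this]
  exact hB

/-- The number of elements of a base, as a natural number. -/
theorem ncard_of_isBase {α : Type*} {M : Matroid α} {B : Set α} (hB : M.IsBase B) (r : ℕ)
    (hr : M.eRank = r) : B.ncard = r := by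
  have hBr : B.encard = r := by rw [hB.encard_eq_eRank, hr]
  rw [Set.ncard, hBr]; rfl

end Vale.Agent.Lib.P317
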