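import Vale.Agent.Lib.P317.Exchange

namespace Vale.Agent.Lib.P317

open Set

variable {α : Type*} [Finite α]

/-- The rank of a set as a natural number. -/
noncomputable def rk (M : Matroid α) (S : Set α) : ℕ := (M.eRk S).toNat

theorem eRk_ne_top (M : Matroid α) (S : Set α) : M.eRk S ≠ ⊤ :=
  ne_top_of_le_ne_top (Set.toFinite S).encard_lt_top.ne (M.eRk_le_encard S)

theorem coe_rk (M : Matroid α) (S : Set α) : ((rk M S : ℕ) : ℕ∞) = M.eRk S :=
  ENat.natCast_toNat (eRk_ne_top M S)

theorem coe_ncard (S : Set α) : ((S.ncard : ℕ) : ℕ∞) = S.encard :=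
  (Set.toFinite S).cast_ncard_eq

theorem rk_le_ncard (M : Matroid α) (S : Set α) : rk M S ≤ S.ncard := by
  have h := M.eRk_le_encard S
  rw [← coe_rk, ← coe_ncard] at h
  exact_mod_cast h

theorem rk_mono (M : Matroid α) {S T : Set α} (h : S ⊆ T) : rk M S ≤ rk M T := by
  have h1 := M.eRk_mono h
  rw [← coe_rk, ← coe_rk] at h1
  exact_mod_cast h1

theorem rk_insert_le (M : Matroid α) (e : α) (S : Set α) : rk M (insert e S) ≤ rk M S + 1 := by
  have h := M.eRk_insert_le_add_one e S
  rw [← coe_rk, ← coe_rk] at h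
  exact_mod_cast h

theorem rk_insert_of_notMem_closure {M : Matroid α} {e : α} {S : Set α}
    (he : e ∈ M.E \ M.closure S) : rk M (insert e S) = rk M S + 1 := by
  have h := Matroid.eRk_insert_eq_add_one he
  rw [← coe_rk, ← coe_rk] at h
  exact_mod_cast h

theorem rk_insert_of_mem_closure {M : Matroid α} {e : α} {S : Set α}
    (he : e ∈ M.closure S) : rk M (insert e S) = rk M S := by
  have h : M.eRk (insert e S) = M.eRk S := by
    rw [← M.eRk_closure_eq (insert e S), Matroid.closure_insert_eq_of_mem_closure he,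
      M.eRk_closure_eq]
  rw [← coe_rk, ← coe_rk] at h
  exact_mod_cast h

theorem indep_of_rk_eq_ncard {M : Matroid α} {S : Set α} (h : rk M S = S.ncard) : M.Indep S := by
  rw [Matroid.indep_iff_eRk_eq_encard_of_finite (Set.toFinite S), ← coe_rk, ← coe_ncard, h]

theorem rk_eq_ncard_of_indep {M : Matroid α} {S : Set α} (h : M.Indep S) : rk M S = S.ncard := by
  have h1 := h.eRk_eq_encard
  rw [← coe_rk, ← coe_ncard] at h1
  exact_mod_cast h1

/-- The coloops of the restriction of `M` to `S`: the elements of `S` that do not lie in the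
closure of the rest of `S`. -/
def coloopsIn (M : Matroid α) (S : Set α) : Set α := {x | x ∈ S ∧ x ∉ M.closure (S \ {x})}

/-- The potential used in the exchange argument: `0` when `S` has full rank `r` in `M`, and
otherwise `k (r - rk S - 1) + |coloops of M|S outside Y| + 1`. -/
noncomputable def pot (M : Matroid α) (r k : ℕ) (Y S : Set α) : ℕ :=
  if r - rk M S = 0 then 0 else k * (r - rk M S - 1) + (coloopsIn M S \ Y).ncard + 1

section Main

variable {M₁ M₂ : Matroid α} {r k : ℕ} {Y : Set α}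

omit [Finite α] in
/-- Every base of `M₁` lies in the ground set of `M₂` and has `r` elements. -/
theorem base_facts (hE : M₁.E = M₂.E) (hr : M₂.eRank = r) (hY1 : M₁.IsBase Y)
    (hY2 : M₂.IsBase Y) {S : Set α} (hS : M₁.IsBase S) :
    S ⊆ M₂.E ∧ S.ncard = r ∧ S.encard = M₂.eRank := by
  have h1 : S.encard = M₂.eRank := by
    rw [hS.encard_eq_eRank, ← hY1.encard_eq_eRank, hY2.encard_eq_eRank]
  refine ⟨hE ▸ hS.subset_ground, ?_, h1⟩
  rw [Set.ncard, h1, hr]; rfl

theorem isBase_of_rk {S : Set α} (hSn : S.ncard = r) (hSenc : S.encard = M₂.eRank)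
    (h : r - rk M₂ S = 0) : M₂.IsBase S := by
  have h0 := rk_le_ncard M₂ S
  have h1 : rk M₂ S = S.ncard := by omega
  exact isBase_of_indep_of_encard (indep_of_rk_eq_ncard h1) hSenc.ge

theorem nu_le (hr : M₂.eRank = r)
    (hgirth : ∀ I ⊆ M₂.E, I.encard + k ≤ M₂.eRank → M₂.Indep I)
    {S : Set α} (hSE : S ⊆ M₂.E) (hSn : S.ncard = r) : r - rk M₂ S ≤ k := by
  by_cases hrk : r ≤ k
  · omega
  · have hle : ((r - k : ℕ) : ℕ∞) ≤ S.encard := by
      rw [← coe_ncard, hSn]; exact_mod_cast Nat.sub_le r k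
    obtain ⟨I, hIS, hI⟩ := Set.exists_subset_encard_eq hle
    have hInd : M₂.Indep I := by
      refine hgirth I (hIS.trans hSE) ?_
      rw [hI, hr]
      exact_mod_cast (by omega : r - k + k ≤ r)
    have h1 : I.ncard ≤ rk M₂ S := by
      rw [← rk_eq_ncard_of_indep hInd]; exact rk_mono M₂ hIS
    have h2 : I.ncard = r - k := by
      have := coe_ncard I
      rw [hI] at this
      exact_mod_cast this
    omega

theorem coloops_bound (hr : M₂.eRank = r)
    (hgirth : ∀ I ⊆ M₂.E, I.encard + k ≤ M₂.eRank → M₂.Indep I)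
    {S : Set α} (hSE : S ⊆ M₂.E) (hSn : S.ncard = r) (hdep : ¬ M₂.Indep S) :
    (coloopsIn M₂ S).ncard + 1 ≤ k := by
  obtain ⟨C, hCS, hC⟩ := ((Matroid.not_indep_iff hSE).mp hdep).exists_isCircuit_subset
  have hCbig : r < C.ncard + k := by
    by_contra hcon
    have : C.encard + k ≤ M₂.eRank := by
      rw [hr, ← coe_ncard]
      exact_mod_cast (by omega : C.ncard + k ≤ r)
    exact hC.dep.not_indep (hgirth C (hCS.trans hSE) this)
  have hsub : coloopsIn M₂ S ⊆ S \ C := by
    intro x hx
    refine ⟨hx.1, fun hxC => hx.2 ?_⟩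
    exact M₂.closure_subset_closure (Set.sdiff_subset_sdiff_left hCS)
      (hC.mem_closure_sdiff_singleton_of_mem hxC)
  have h1 : (coloopsIn M₂ S).ncard ≤ (S \ C).ncard := Set.ncard_le_ncard hsub (Set.toFinite _)
  have h2 : (S \ C).ncard = S.ncard - C.ncard := Set.ncard_sdiff hCS
  have h0 : C.ncard ≤ S.ncard := Set.ncard_le_ncard hCS (Set.toFinite _)
  omega

theorem pot_le_mul (hr : M₂.eRank = r)
    (hgirth : ∀ I ⊆ M₂.E, I.encard + k ≤ M₂.eRank → M₂.Indep I)
    {S : Set α} (hSE : S ⊆ M₂.E) (hSn : S.ncard = r) (hν : r - rk M₂ S ≠ 0) :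
    pot M₂ r k Y S ≤ k * (r - rk M₂ S) := by
  have hdep : ¬ M₂.Indep S := fun hI => hν (by rw [rk_eq_ncard_of_indep hI, hSn]; exact Nat.sub_self r)
  have h1 := coloops_bound hr hgirth hSE hSn hdep
  have h3 : (coloopsIn M₂ S \ Y).ncard ≤ (coloopsIn M₂ S).ncard :=
    Set.ncard_le_ncard Set.sdiff_subset (Set.toFinite _)
  unfold pot
  rw [if_neg hν]
  obtain ⟨n, hn⟩ : ∃ n, r - rk M₂ S = n + 1 := ⟨r - rk M₂ S - 1, by omega⟩
  rw [hn, Nat.add_sub_cancel, Nat.mul_succ]
  omega

theorem pot_le (hr : M₂.eRank = r)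
    (hgirth : ∀ I ⊆ M₂.E, I.encard + k ≤ M₂.eRank → M₂.Indep I)
    {S : Set α} (hSE : S ⊆ M₂.E) (hSn : S.ncard = r) : pot M₂ r k Y S ≤ k ^ 2 := by
  by_cases hν : r - rk M₂ S = 0
  · unfold pot; rw [if_pos hν]; exact Nat.zero_le _
  · have h1 := pot_le_mul (Y := Y) hr hgirth hSE hSn hν
    have h2 := nu_le hr hgirth hSE hSn
    have h3 : k * (r - rk M₂ S) ≤ k * k := Nat.mul_le_mul_left k h2
    rw [pow_two]
    omega

/-- The exchange step: a base of `M₁` that is not a base of `M₂` has an exchange neighbour which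
is a base of `M₁` with smaller potential. -/
theorem exists_step (hE : M₁.E = M₂.E) (hr : M₂.eRank = r)
    (hgirth : ∀ I ⊆ M₂.E, I.encard + k ≤ M₂.eRank → M₂.Indep I)
    (hY1 : M₁.IsBase Y) (hY2 : M₂.IsBase Y) {S : Set α} (hS : M₁.IsBase S)
    (hν : r - rk M₂ S ≠ 0) :
    ∃ e ∈ S, ∃ f ∈ M₂.E \ S, M₁.IsBase (insert f (S \ {e})) ∧
      pot M₂ r k Y (insert f (S \ {e})) < pot M₂ r k Y S := by
  obtain ⟨hSE, hSn, hSenc⟩ := base_facts hE hr hY1 hY2 hS
  have hS2 : ¬ M₂.IsBase S := fun hb => hν (by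
    have : rk M₂ S = S.ncard := rk_eq_ncard_of_indep hb.indep
    omega)
  -- an element of `Y` outside the closure of `S`
  have hex : ∃ f ∈ Y, f ∉ M₂.closure S := by
    by_contra hcon
    have hsub : Y ⊆ M₂.closure S := fun f hf => by
      by_contra h
      exact hcon ⟨f, hf, h⟩
    have h1 : M₂.E ⊆ M₂.closure S := by
      rw [← hY2.closure_eq]
      exact M₂.closure_subset_closure_of_subset_closure hsub
    have hsp : M₂.Spanning S := by
      rw [Matroid.spanning_iff_closure_eq hSE]
      exact subset_antisymm (M₂.closure_subset_ground S) h1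
    obtain ⟨B, hB, hBS⟩ := hsp.exists_isBase_subset
    have hle : S.encard ≤ B.encard := by rw [hSenc, hB.encard_eq_eRank]
    have : B = S := (Set.toFinite _).eq_of_subset_of_encard_le hBS hle
    exact hS2 (this ▸ hB)
  obtain ⟨f, hfY, hfcl⟩ := hex
  have hfE : f ∈ M₂.E := hY2.subset_ground hfY
  have hfS : f ∉ S := fun h => hfcl (M₂.subset_closure S hSE h)
  -- rank of an exchange
  have key : ∀ e ∈ S, rk M₂ S ≤ rk M₂ (insert f (S \ {e})) ∧
      (e ∈ M₂.closure (S \ {e}) → rk M₂ (insert f (S \ {e})) = rk M₂ S + 1) := by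
    intro e he
    have hfcl' : f ∈ M₂.E \ M₂.closure (S \ {e}) :=
      ⟨hfE, fun h => hfcl (M₂.closure_subset_closure Set.sdiff_subset h)⟩
    have h1 : rk M₂ (insert f (S \ {e})) = rk M₂ (S \ {e}) + 1 :=
      rk_insert_of_notMem_closure hfcl'
    have h2 : insert e (S \ {e}) = S := by
      rw [Set.insert_sdiff_singleton, Set.insert_eq_of_mem he]
    constructor
    · have h3 := rk_insert_le M₂ e (S \ {e})
      rw [h2] at h3
      omega
    · intro hecl
      have h3 := rk_insert_of_mem_closure hecl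
      rw [h2] at h3
      omega
  -- the potential drops when the rank increases
  have drop : ∀ S', M₁.IsBase S' → rk M₂ S < rk M₂ S' →
      pot M₂ r k Y S' < pot M₂ r k Y S := by
    intro S' hS' hlt
    obtain ⟨hSE', hSn', -⟩ := base_facts hE hr hY1 hY2 hS'
    have hpS : k * (r - rk M₂ S - 1) < pot M₂ r k Y S := by
      unfold pot; rw [if_neg hν]; omega
    by_cases hν' : r - rk M₂ S' = 0
    · have : pot M₂ r k Y S' = 0 := by unfold pot; rw [if_pos hν']
      omega
    · have h1 := pot_le_mul (Y := Y) hr hgirth hSE' hSn' hν'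
      have h2 : k * (r - rk M₂ S') ≤ k * (r - rk M₂ S - 1) :=
        Nat.mul_le_mul_left k (by omega)
      omega
  by_cases hcase : ∃ e ∈ S, M₁.IsBase (insert f (S \ {e})) ∧ e ∈ M₂.closure (S \ {e})
  · obtain ⟨e, he, hbase, hecl⟩ := hcase
    refine ⟨e, he, f, ⟨hfE, hfS⟩, hbase, drop _ hbase ?_⟩
    have := (key e he).2 hecl
    omega
  · -- all removable elements are coloops; choose a removable element outside `Y`
    have hIY : insert f (S ∩ Y) ⊆ Y := Set.insert_subset hfY Set.inter_subset_right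
    obtain ⟨B', hB', hIB', hsub'⟩ :=
      (hY1.indep.subset hIY).exists_isBase_subset_union_isBase hS
    have hfB' : f ∈ B' := hIB' (Set.mem_insert _ _)
    have hnot : ¬ S ⊆ B' := fun h => hfS ((hS.eq_of_subset_isBase hB' h) ▸ hfB')
    obtain ⟨e, heS, heB'⟩ := Set.not_subset.mp hnot
    have heY : e ∉ Y := fun h => heB' (hIB' (Set.mem_insert_of_mem _ ⟨heS, h⟩))
    obtain ⟨y, hy, hbase⟩ := hS.exchange hB' ⟨heS, heB'⟩
    have hyf : y = f := by
      rcases hsub' hy.1 with h | h
      · rcases h with h | h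
        · exact h
        · exact absurd h.1 hy.2
      · exact absurd h hy.2
    subst hyf
    have hecl : e ∉ M₂.closure (S \ {e}) := fun h => hcase ⟨e, heS, hbase, h⟩
    refine ⟨e, heS, y, ⟨hfE, hfS⟩, hbase, ?_⟩
    rcases (key e heS).1.lt_or_eq with hlt | heq
    · exact drop _ hbase hlt
    · -- same rank: the number of coloops outside `Y` drops
      have hsubset : coloopsIn M₂ (insert y (S \ {e})) \ Y ⊂ coloopsIn M₂ S \ Y := by
        refine ⟨?_, ?_⟩
        · rintro x ⟨⟨hxS', hxcl⟩, hxY⟩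
          have hxy : x ≠ y := fun h => hxY (h ▸ hfY)
          have hxS : x ∈ S \ {e} := by
            rcases hxS' with h | h
            · exact absurd h hxy
            · exact h
          refine ⟨⟨hxS.1, fun hx => hxcl ?_⟩, hxY⟩
          have hxe : x ≠ e := fun h => hxS.2 h
          have hins : S \ {x} = insert e ((S \ {e}) \ {x}) := by
            ext z
            simp only [Set.mem_sdiff, Set.mem_insert_iff, Set.mem_singleton_iff]
            constructor
            · rintro ⟨h1, h2⟩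
              by_cases hze : z = e
              · exact Or.inl hze
              · exact Or.inr ⟨⟨h1, hze⟩, h2⟩
            · rintro (h1 | ⟨⟨h1, -⟩, h2⟩)
              · subst h1
                exact ⟨heS, fun h => hxe h.symm⟩
              · exact ⟨h1, h2⟩
          have hxA : x ∈ M₂.closure ((S \ {e}) \ {x}) := by
            by_contra hxA
            have h1 : x ∈ M₂.closure (insert e ((S \ {e}) \ {x})) \
                M₂.closure ((S \ {e}) \ {x}) := ⟨hins ▸ hx, hxA⟩
            have h2 := (Matroid.closure_exchange h1).1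
            have h3 : insert x ((S \ {e}) \ {x}) = S \ {e} := by
              rw [Set.insert_sdiff_singleton, Set.insert_eq_of_mem hxS]
            rw [h3] at h2
            exact hecl h2
          refine M₂.closure_subset_closure ?_ hxA
          intro z hz
          exact ⟨Or.inr hz.1, hz.2⟩
        · intro hsub
          have heR : e ∈ coloopsIn M₂ S \ Y := ⟨⟨heS, hecl⟩, heY⟩
          rcases (hsub heR).1.1 with h | h
          · exact hfS (h ▸ heS)
          · exact h.2 rfl
      have hcard := Set.ncard_lt_ncard hsubset (Set.toFinite _)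
      have hν' : r - rk M₂ (insert y (S \ {e})) ≠ 0 := by rw [← heq]; exact hν
      unfold pot
      rw [if_neg hν, if_neg hν', ← heq]
      omega

/-- Counting the bases of `M₁` by potential. -/
theorem ncard_level_le (hE : M₁.E = M₂.E) (hr : M₂.eRank = r)
    (hgirth : ∀ I ⊆ M₂.E, I.encard + k ≤ M₂.eRank → M₂.Indep I)
    (hY1 : M₁.IsBase Y) (hY2 : M₂.IsBase Y) (m : ℕ) :
    {S | M₁.IsBase S ∧ pot M₂ r k Y S ≤ m}.ncard ≤
      (1 + r * (M₂.E.ncard - r)) ^ m * {B | M₁.IsBase B ∧ M₂.IsBase B}.ncard := by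
  induction m with
  | zero =>
    rw [pow_zero, one_mul]
    refine Set.ncard_le_ncard ?_ (Set.toFinite _)
    rintro S ⟨hS, hp⟩
    refine ⟨hS, ?_⟩
    obtain ⟨hSE, hSn, hSenc⟩ := base_facts hE hr hY1 hY2 hS
    by_cases hν : r - rk M₂ S = 0
    · exact isBase_of_rk hSn hSenc hν
    · exfalso
      unfold pot at hp
      rw [if_neg hν] at hp
      omega
  | succ m ih =>
    have hstep : {S | M₁.IsBase S ∧ pot M₂ r k Y S ≤ m + 1}.ncard ≤
        (1 + r * (M₂.E.ncard - r)) * {S | M₁.IsBase S ∧ pot M₂ r k Y S ≤ m}.ncard := by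
      refine ncard_le_of_exchange_cover M₂.E r _ _ (fun T hT => ?_) ?_
      · obtain ⟨h1, h2, -⟩ := base_facts hE hr hY1 hY2 hT.1
        exact ⟨h1, h2⟩
      · rintro S ⟨hS, hp⟩
        by_cases hle : pot M₂ r k Y S ≤ m
        · exact Or.inl ⟨hS, hle⟩
        · right
          have hν : r - rk M₂ S ≠ 0 := by
            intro h
            apply hle
            unfold pot
            rw [if_pos h]
            exact Nat.zero_le _
          obtain ⟨e, he, f, hf, hbase, hlt⟩ := exists_step hE hr hgirth hY1 hY2 hS hν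
          have hSE := (base_facts hE hr hY1 hY2 hS).1
          refine ⟨insert f (S \ {e}), ⟨hbase, by omega⟩, e, ⟨hSE he, ?_⟩, f,
            Set.mem_insert _ _, insert_sdiff_insert_sdiff he hf.2⟩
          intro h
          rcases h with h | h
          · exact hf.2 (h ▸ he)
          · exact h.2 rfl
    calc {S | M₁.IsBase S ∧ pot M₂ r k Y S ≤ m + 1}.ncard
        ≤ (1 + r * (M₂.E.ncard - r)) * {S | M₁.IsBase S ∧ pot M₂ r k Y S ≤ m}.ncard := hstep
      _ ≤ (1 + r * (M₂.E.ncard - r)) *
          ((1 + r * (M₂.E.ncard - r)) ^ m * {B | M₁.IsBase B ∧ M₂.IsBase B}.ncard) :=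
        Nat.mul_le_mul_left _ ih
      _ = (1 + r * (M₂.E.ncard - r)) ^ (m + 1) * {B | M₁.IsBase B ∧ M₂.IsBase B}.ncard := by
        ring

end Main

end Vale.Agent.Lib.P317
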