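import Vale.Agent.Lib.P317.Weak

namespace Vale.Agent.Lib.P317.Level

open Set Vale.Agent.Lib.P317

variable {α : Type*} [Finite α]

section Main

variable {M₁ M₂ : Matroid α} {r k : ℕ} {Y : Set α}

/-- The exchange step: a base of `M₁` that is not a base of `M₂` has an exchange neighbour which
is a base of `M₁` with smaller potential. -/
theorem exists_step (hE : M₁.E = M₂.E) (hr : M₂.eRank = r)
    (hY1 : M₁.IsBase Y) (hY2 : M₂.IsBase Y) {S : Set α} (hS : M₁.IsBase S)
    (hloc : ∀ I ⊆ S, I.encard + k ≤ M₂.eRank → M₂.Indep I)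
    (hν : r - rk M₂ S ≠ 0) :
    ∃ e ∈ S, ∃ f ∈ M₂.E \ S, M₁.IsBase (insert f (S \ {e})) ∧
      (∀ I ⊆ insert f (S \ {e}), I.encard + k ≤ M₂.eRank → M₂.Indep I) ∧
      pot M₂ r k Y (insert f (S \ {e})) < pot M₂ r k Y S := by
  obtain ⟨hSE, hSn, hSenc⟩ := base_facts hE hr hY1 hY2 hS
  have hS2 : ¬ M₂.IsBase S := fun hb => hν (by
    have : rk M₂ S = S.ncard := rk_eq_ncard_of_indep hb.indep
    omega)
  -- an element of `Y` outside the closure of `S`
  have hex : ∃ f ∈ Y, f ∉ M₂.closure S := by
    by_contra hcon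
    have hsub : Y ⊆ M₂.closure S := fun f hf => by
      by_contra h
      exact hcon ⟨f, hf, h⟩
    have h1 : M₂.E ⊆ M₂.closure S := by
      rw [← hY2.closure_eq]
      exact M₂.closure_subset_closure_of_subset_closure hsub
    have hsp : M₂.Spanning S := by
      rw [Matroid.spanning_iff_closure_eq hSE]
      exact subset_antisymm (M₂.closure_subset_ground S) h1
    obtain ⟨B, hB, hBS⟩ := hsp.exists_isBase_subset
    have hle : S.encard ≤ B.encard := by rw [hSenc, hB.encard_eq_eRank]
    have : B = S := (Set.toFinite _).eq_of_subset_of_encard_le hBS hle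
    exact hS2 (this ▸ hB)
  obtain ⟨f, hfY, hfcl⟩ := hex
  have hfE : f ∈ M₂.E := hY2.subset_ground hfY
  have hfS : f ∉ S := fun h => hfcl (M₂.subset_closure S hSE h)
  -- the local independence property is inherited by every exchange that brings in `f`
  have hloc' : ∀ e, ∀ I ⊆ insert f (S \ {e}), I.encard + k ≤ M₂.eRank → M₂.Indep I := by
    intro e I hI hc
    by_cases hfI : f ∈ I
    · have hJS : I \ {f} ⊆ S := by
        intro x hx
        rcases hI hx.1 with h | h
        · exact absurd h hx.2
        · exact h.1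
      have hJc : (I \ {f}).encard + k ≤ M₂.eRank :=
        le_trans (add_le_add_left (Set.encard_le_encard Set.sdiff_subset) k) hc
      have hJ : M₂.Indep (I \ {f}) := hloc _ hJS hJc
      have hfclJ : f ∉ M₂.closure (I \ {f}) := fun h => hfcl (M₂.closure_subset_closure hJS h)
      have h1 := hJ.insert_indep_iff.2 (Or.inl ⟨hfE, hfclJ⟩)
      rwa [Set.insert_sdiff_singleton, Set.insert_eq_of_mem hfI] at h1
    · refine hloc I ?_ hc
      intro x hx
      rcases hI hx with h | h
      · exact absurd (h ▸ hx) hfI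
      · exact h.1
  -- rank of an exchange
  have key : ∀ e ∈ S, rk M₂ S ≤ rk M₂ (insert f (S \ {e})) ∧
      (e ∈ M₂.closure (S \ {e}) → rk M₂ (insert f (S \ {e})) = rk M₂ S + 1) := by
    intro e he
    have hfcl' : f ∈ M₂.E \ M₂.closure (S \ {e}) :=
      ⟨hfE, fun h => hfcl (M₂.closure_subset_closure Set.sdiff_subset h)⟩
    have h1 : rk M₂ (insert f (S \ {e})) = rk M₂ (S \ {e}) + 1 :=
      rk_insert_of_notMem_closure hfcl'
    have h2 : insert e (S \ {e}) = S := by
      rw [Set.insert_sdiff_singleton, Set.insert_eq_of_mem he]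
    constructor
    · have h3 := rk_insert_le M₂ e (S \ {e})
      rw [h2] at h3
      omega
    · intro hecl
      have h3 := rk_insert_of_mem_closure hecl
      rw [h2] at h3
      omega
  -- the potential drops when the rank increases
  have drop : ∀ S', M₁.IsBase S' →
      (∀ I ⊆ S', I.encard + k ≤ M₂.eRank → M₂.Indep I) → rk M₂ S < rk M₂ S' →
      pot M₂ r k Y S' < pot M₂ r k Y S := by
    intro S' hS' hlocS' hlt
    obtain ⟨hSE', hSn', -⟩ := base_facts hE hr hY1 hY2 hS'
    have hpS : k * (r - rk M₂ S - 1) < pot M₂ r k Y S := by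
      unfold pot; rw [if_neg hν]; omega
    by_cases hν' : r - rk M₂ S' = 0
    · have : pot M₂ r k Y S' = 0 := by unfold pot; rw [if_pos hν']
      omega
    · have h1 := Weak.pot_le_mul (Y := Y) hr hlocS' hSE' hSn' hν'
      have h2 : k * (r - rk M₂ S') ≤ k * (r - rk M₂ S - 1) :=
        Nat.mul_le_mul_left k (by omega)
      omega
  by_cases hcase : ∃ e ∈ S, M₁.IsBase (insert f (S \ {e})) ∧ e ∈ M₂.closure (S \ {e})
  · obtain ⟨e, he, hbase, hecl⟩ := hcase
    refine ⟨e, he, f, ⟨hfE, hfS⟩, hbase, hloc' e, drop _ hbase (hloc' e) ?_⟩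
    have := (key e he).2 hecl
    omega
  · -- all removable elements are coloops; choose a removable element outside `Y`
    have hIY : insert f (S ∩ Y) ⊆ Y := Set.insert_subset hfY Set.inter_subset_right
    obtain ⟨B', hB', hIB', hsub'⟩ :=
      (hY1.indep.subset hIY).exists_isBase_subset_union_isBase hS
    have hfB' : f ∈ B' := hIB' (Set.mem_insert _ _)
    have hnot : ¬ S ⊆ B' := fun h => hfS ((hS.eq_of_subset_isBase hB' h) ▸ hfB')
    obtain ⟨e, heS, heB'⟩ := Set.not_subset.mp hnot
    have heY : e ∉ Y := fun h => heB' (hIB' (Set.mem_insert_of_mem _ ⟨heS, h⟩))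
    obtain ⟨y, hy, hbase⟩ := hS.exchange hB' ⟨heS, heB'⟩
    have hyf : y = f := by
      rcases hsub' hy.1 with h | h
      · rcases h with h | h
        · exact h
        · exact absurd h.1 hy.2
      · exact absurd h hy.2
    subst hyf
    have hecl : e ∉ M₂.closure (S \ {e}) := fun h => hcase ⟨e, heS, hbase, h⟩
    refine ⟨e, heS, y, ⟨hfE, hfS⟩, hbase, hloc' e, ?_⟩
    rcases (key e heS).1.lt_or_eq with hlt | heq
    · exact drop _ hbase (hloc' e) hlt
    · -- same rank: the number of coloops outside `Y` drops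
      have hsubset : coloopsIn M₂ (insert y (S \ {e})) \ Y ⊂ coloopsIn M₂ S \ Y := by
        refine ⟨?_, ?_⟩
        · rintro x ⟨⟨hxS', hxcl⟩, hxY⟩
          have hxy : x ≠ y := fun h => hxY (h ▸ hfY)
          have hxS : x ∈ S \ {e} := by
            rcases hxS' with h | h
            · exact absurd h hxy
            · exact h
          refine ⟨⟨hxS.1, fun hx => hxcl ?_⟩, hxY⟩
          have hxe : x ≠ e := fun h => hxS.2 h
          have hins : S \ {x} = insert e ((S \ {e}) \ {x}) := by
            ext z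
            simp only [Set.mem_sdiff, Set.mem_insert_iff, Set.mem_singleton_iff]
            constructor
            · rintro ⟨h1, h2⟩
              by_cases hze : z = e
              · exact Or.inl hze
              · exact Or.inr ⟨⟨h1, hze⟩, h2⟩
            · rintro (h1 | ⟨⟨h1, -⟩, h2⟩)
              · subst h1
                exact ⟨heS, fun h => hxe h.symm⟩
              · exact ⟨h1, h2⟩
          have hxA : x ∈ M₂.closure ((S \ {e}) \ {x}) := by
            by_contra hxA
            have h1 : x ∈ M₂.closure (insert e ((S \ {e}) \ {x})) \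
                M₂.closure ((S \ {e}) \ {x}) := ⟨hins ▸ hx, hxA⟩
            have h2 := (Matroid.closure_exchange h1).1
            have h3 : insert x ((S \ {e}) \ {x}) = S \ {e} := by
              rw [Set.insert_sdiff_singleton, Set.insert_eq_of_mem hxS]
            rw [h3] at h2
            exact hecl h2
          refine M₂.closure_subset_closure ?_ hxA
          intro z hz
          exact ⟨Or.inr hz.1, hz.2⟩
        · intro hsub
          have heR : e ∈ coloopsIn M₂ S \ Y := ⟨⟨heS, hecl⟩, heY⟩
          rcases (hsub heR).1.1 with h | h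
          · exact hfS (h ▸ heS)
          · exact h.2 rfl
      have hcard := Set.ncard_lt_ncard hsubset (Set.toFinite _)
      have hν' : r - rk M₂ (insert y (S \ {e})) ≠ 0 := by rw [← heq]; exact hν
      unfold pot
      rw [if_neg hν, if_neg hν', ← heq]
      omega

/-- Counting, by potential, the bases of `M₁` all of whose small subsets are independent in
`M₂`. -/
theorem ncard_level_le (hE : M₁.E = M₂.E) (hr : M₂.eRank = r)
    (hY1 : M₁.IsBase Y) (hY2 : M₂.IsBase Y) (m : ℕ) :
    {S | M₁.IsBase S ∧ (∀ I ⊆ S, I.encard + k ≤ M₂.eRank → M₂.Indep I) ∧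
        pot M₂ r k Y S ≤ m}.ncard ≤
      (1 + r * (M₂.E.ncard - r)) ^ m * {B | M₁.IsBase B ∧ M₂.IsBase B}.ncard := by
  induction m with
  | zero =>
    rw [pow_zero, one_mul]
    refine Set.ncard_le_ncard ?_ (Set.toFinite _)
    rintro S ⟨hS, -, hp⟩
    refine ⟨hS, ?_⟩
    obtain ⟨hSE, hSn, hSenc⟩ := base_facts hE hr hY1 hY2 hS
    by_cases hν : r - rk M₂ S = 0
    · exact isBase_of_rk hSn hSenc hν
    · exfalso
      unfold pot at hp
      rw [if_neg hν] at hp
      omega
  | succ m ih =>
    have hstep : {S | M₁.IsBase S ∧ (∀ I ⊆ S, I.encard + k ≤ M₂.eRank → M₂.Indep I) ∧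
          pot M₂ r k Y S ≤ m + 1}.ncard ≤
        (1 + r * (M₂.E.ncard - r)) *
          {S | M₁.IsBase S ∧ (∀ I ⊆ S, I.encard + k ≤ M₂.eRank → M₂.Indep I) ∧
            pot M₂ r k Y S ≤ m}.ncard := by
      refine ncard_le_of_exchange_cover M₂.E r _ _ (fun T hT => ?_) ?_
      · obtain ⟨h1, h2, -⟩ := base_facts hE hr hY1 hY2 hT.1
        exact ⟨h1, h2⟩
      · rintro S ⟨hS, hloc, hp⟩
        by_cases hle : pot M₂ r k Y S ≤ m
        · exact Or.inl ⟨hS, hloc, hle⟩
        · right
          have hν : r - rk M₂ S ≠ 0 := by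
            intro h
            apply hle
            unfold pot
            rw [if_pos h]
            exact Nat.zero_le _
          obtain ⟨e, he, f, hf, hbase, hloc', hlt⟩ := exists_step hE hr hY1 hY2 hS hloc hν
          have hSE := (base_facts hE hr hY1 hY2 hS).1
          refine ⟨insert f (S \ {e}), ⟨hbase, hloc', by omega⟩, e, ⟨hSE he, ?_⟩, f,
            Set.mem_insert _ _, insert_sdiff_insert_sdiff he hf.2⟩
          intro h
          rcases h with h | h
          · exact hf.2 (h ▸ he)
          · exact h.2 rfl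
    calc {S | M₁.IsBase S ∧ (∀ I ⊆ S, I.encard + k ≤ M₂.eRank → M₂.Indep I) ∧
            pot M₂ r k Y S ≤ m + 1}.ncard
        ≤ (1 + r * (M₂.E.ncard - r)) *
            {S | M₁.IsBase S ∧ (∀ I ⊆ S, I.encard + k ≤ M₂.eRank → M₂.Indep I) ∧
              pot M₂ r k Y S ≤ m}.ncard := hstep
      _ ≤ (1 + r * (M₂.E.ncard - r)) *
          ((1 + r * (M₂.E.ncard - r)) ^ m * {B | M₁.IsBase B ∧ M₂.IsBase B}.ncard) :=
        Nat.mul_le_mul_left _ ih
      _ = (1 + r * (M₂.E.ncard - r)) ^ (m + 1) * {B | M₁.IsBase B ∧ M₂.IsBase B}.ncard := by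
        ring

end Main

end Vale.Agent.Lib.P317.Level
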